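import Vale.Agent.P368.Final

/-!
# P368: Moore's parity conjecture

No `QAC⁰` family computes parity with a fixed worst-case advantage; moreover, for all circuits of
entangling depth `≤ d` on `N ≤ n^c` qubits the parity correlation is at most `exp(-n^(1-κ))`.

Proof idea (files in `Vale/Agent/P368`): let `V` be a depth-`k` circuit.  `Loc k μ` says that an
operator on `r` qubits, conjugated by `V`, changes the number `N_T` of ones in any set `T` from `0`
to `≥ y ≥ μ r` only with amplitude `≤ exp(-y/μ)` (in operator norm, for all states of the other
qubits); `Big k λ` is the same for arbitrarily large product projectors.  `Loc k` and `Big k` give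
`Loc (k+1)` since a product of disjoint AND-projectors is again a product projector.  `Big k`
follows from `Loc k` by approximating the projectors `P`, `E` in `P E P E ⋯` by Chebyshev-type
polynomials of smaller and smaller degree, and by the inequality
`‖J P E‖^(2i+1) ≤ ‖J (P E)^(i+1)‖`.
-/

namespace Vale.Agent.Results.P368.MooreParity

open Vale.Agent.P368

/-- **Moore's parity conjecture.**  (1) For every `QAC⁰` family (constant depth, polynomially many
qubits) and every `ε > 0`, for all sufficiently large `n` the `n`-th circuit does not compute
`PAR_n` with worst-case advantage `ε`.  (2) For all `d`, `c` and `κ > 0`, for all sufficiently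
large `n`, every circuit on `N ≤ n^c` qubits of entangling depth at most `d` has parity
correlation at most `exp(-n^(1-κ))` in absolute value. -/
theorem result :
    (∀ F : CircuitFamily, F.IsQAC0 → ∀ ε : ℝ, 0 < ε →
      ∀ᶠ n : ℕ in Filter.atTop, ¬ (F.circuit n).ComputesParity n ε) ∧
    (∀ (d c : ℕ) (κ : ℝ), 0 < κ →
      ∀ᶠ n : ℕ in Filter.atTop, ∀ N : ℕ, n ≤ N → N ≤ n ^ c → ∀ C : Circuit N,
        C.entanglingDepth ≤ d →
          |C.parityCorrelation n| ≤ Real.exp (-(n : ℝ) ^ (1 - κ))) :=
  ⟨fun F hF ε hε => no_qac0_parity F hF ε hε, correlation_bound⟩

end Vale.Agent.Results.P368.MooreParity
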